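import Mathlib

/-!
Total sensitivity of a finite metric space: for every function on an `n`-point metric space
the `p`-th power of each slope is bounded by a weighted sum of all the `p`-th powers of slopes,
with weights of total mass about `(2 log n)^p * n * log n`.
-/

open Finset

namespace Vale.Agent.Lib.P249

lemma sum_inv_card_filter_le {β : Type*} [DecidableEq β] (r : β → ℝ) :
    ∀ (n : ℕ) (T : Finset β), T.card = n →
      ∑ z ∈ T, (((T.filter fun w => r w ≤ r z).card : ℝ))⁻¹ ≤ ((harmonic n : ℚ) : ℝ) := by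
  intro n
  induction n with
  | zero =>
    intro T hT
    have : T = ∅ := Finset.card_eq_zero.mp hT
    subst this
    simp
  | succ n ih =>
    intro T hT
    have hne : T.Nonempty := by
      rw [← Finset.card_pos]; omega
    obtain ⟨z0, hz0, hmax⟩ := Finset.exists_max_image T r hne
    have hcard' : (T.erase z0).card = n := by
      rw [Finset.card_erase_of_mem hz0]; omega
    have h1 := ih (T.erase z0) hcard'
    rw [← Finset.add_sum_erase T _ hz0]
    have h2 : (T.filter fun w => r w ≤ r z0) = T := by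
      apply Finset.filter_true_of_mem
      intro w hw; exact hmax w hw
    rw [h2, hT, harmonic_succ]
    push_cast
    have h3 : ∑ z ∈ T.erase z0, (((T.filter fun w => r w ≤ r z).card : ℝ))⁻¹ ≤
        ∑ z ∈ T.erase z0, ((((T.erase z0).filter fun w => r w ≤ r z).card : ℝ))⁻¹ := by
      apply Finset.sum_le_sum
      intro z hz
      have hpos : 0 < ((T.erase z0).filter fun w => r w ≤ r z).card :=
        Finset.card_pos.mpr ⟨z, Finset.mem_filter.mpr ⟨hz, le_refl _⟩⟩
      apply inv_anti₀ (by exact_mod_cast hpos)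
      exact_mod_cast Finset.card_le_card (Finset.filter_subset_filter _ (Finset.erase_subset _ _))
    linarith

variable {α : Type*} [MetricSpace α]

/-- number of points of `S` within distance `r` of `u` -/
noncomputable def ballCard (S : Finset α) (u : α) (r : ℝ) : ℕ :=
  (S.filter fun z => dist u z ≤ r).card

lemma sum_erase_inv_ballCard_le [DecidableEq α] (S : Finset α) {u : α} (hu : u ∈ S) :
    ∑ z ∈ S.erase u, ((ballCard S u (dist u z) : ℝ))⁻¹ ≤ Real.log S.card := by
  have h1 := sum_inv_card_filter_le (fun w => dist u w) S.card S rfl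
  have h2 := harmonic_le_one_add_log S.card
  rw [← Finset.add_sum_erase S _ hu] at h1
  have h3 : (S.filter fun w => dist u w ≤ dist u u) = {u} := by
    ext w
    simp only [Finset.mem_filter, Finset.mem_singleton, dist_self]
    constructor
    · rintro ⟨_, h⟩
      exact (dist_le_zero.mp h).symm
    · rintro rfl
      exact ⟨hu, by simp⟩
  rw [h3] at h1
  simp only [Finset.card_singleton, Nat.cast_one, inv_one] at h1
  unfold ballCard
  linarith

lemma add_rpow_le_real {a b p : ℝ} (ha : 0 ≤ a) (hb : 0 ≤ b) (hp : 1 ≤ p) :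
    (a + b) ^ p ≤ 2 ^ (p - 1) * (a ^ p + b ^ p) := by
  lift a to NNReal using ha
  lift b to NNReal using hb
  exact_mod_cast NNReal.rpow_add_le_mul_rpow_add_rpow a b hp

/-- the key estimate: each slope is dominated by a fixed weighted sum of all the slopes -/
theorem slope_bound [DecidableEq α] (S : Finset α) {p : ℝ} (hp : 1 ≤ p) (f : α → ℝ)
    {x y : α} (hx : x ∈ S) (hy : y ∈ S) (hxy : x ≠ y) :
    |f x - f y| ^ p / dist x y ^ p ≤ (2 * ((Nat.log 2 S.card : ℝ) + 1)) ^ p *
      ∑ u ∈ S, ∑ z ∈ S, ((ballCard S u (dist u z) : ℝ))⁻¹ * (|f u - f z| ^ p / dist u z ^ p) := by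
  have hp0 : 0 < p := by linarith
  set ρ := dist x y with hρ
  have hρpos : 0 < ρ := dist_pos.mpr hxy
  set J := Nat.log 2 S.card with hJ
  let Z : ℕ → Finset α := fun j => S.filter fun z => dist x z ≤ j * ρ ∨ dist y z ≤ j * ρ
  have hZsub : ∀ j, Z j ⊆ S := fun j => Finset.filter_subset _ _
  have hxZ : ∀ j : ℕ, 1 ≤ j → x ∈ Z j := by
    intro j hj
    refine Finset.mem_filter.mpr ⟨hx, Or.inl ?_⟩
    rw [dist_self]
    positivity
  have hyZ : ∀ j : ℕ, 1 ≤ j → y ∈ Z j := by
    intro j hj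
    refine Finset.mem_filter.mpr ⟨hy, Or.inr ?_⟩
    rw [dist_self]
    positivity
  -- a scale of bounded growth exists
  have hex : ∃ j : ℕ, 1 ≤ j ∧ j ≤ J ∧ (Z (j + 1)).card ≤ 2 * (Z j).card := by
    by_contra hcon
    push Not at hcon
    have hgrow : ∀ j : ℕ, j ≤ J → 2 ^ (j + 1) ≤ (Z (j + 1)).card := by
      intro j
      induction j with
      | zero =>
        intro _
        have : 1 < (Z 1).card := Finset.one_lt_card.mpr
          ⟨x, hxZ 1 le_rfl, y, hyZ 1 le_rfl, hxy⟩
        simp only [zero_add, pow_one]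
        omega
      | succ j ih =>
        intro hj
        have h1 := ih (by omega)
        have h2 := hcon (j + 1) (by omega) hj
        rw [pow_succ]
        omega
    have h1 := hgrow J le_rfl
    have h2 : (Z (J + 1)).card ≤ S.card := Finset.card_le_card (hZsub _)
    have h3 : S.card < 2 ^ (J + 1) := Nat.lt_pow_succ_log_self (by norm_num) S.card
    omega
  obtain ⟨j, hj1, hjJ, hgrowth⟩ := hex
  set m := (Z j).card with hm
  have hmpos : 0 < m := Finset.card_pos.mpr ⟨x, hxZ j hj1⟩
  have hmR : (0 : ℝ) < m := by exact_mod_cast hmpos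
  set κ : ℝ := 2 * ((j : ℝ) + 1) ^ p with hκ
  have hj1R : (0 : ℝ) < (j : ℝ) + 1 := by positivity
  have hκpos : 0 < κ := by positivity
  set T : α → α → ℝ := fun u z =>
    ((ballCard S u (dist u z) : ℝ))⁻¹ * (|f u - f z| ^ p / dist u z ^ p) with hT
  have hTnn : ∀ u z, 0 ≤ T u z := by
    intro u z
    simp only [hT]
    positivity
  -- comparison for an endpoint `u` and a point `z` of `Z j`
  have hcomp : ∀ u z : α, z ∈ S → dist u z ≤ ((j : ℝ) + 1) * ρ →
      ballCard S u (dist u z) ≤ 2 * m →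
      |f u - f z| ^ p / (m * ρ ^ p) ≤ κ * T u z := by
    intro u z hzS hd hN
    by_cases huz : u = z
    · subst huz
      have : |f u - f u| ^ p = 0 := by
        rw [sub_self, abs_zero, Real.zero_rpow hp0.ne']
      rw [this, zero_div]
      exact mul_nonneg hκpos.le (hTnn _ _)
    · have hdpos : 0 < dist u z := dist_pos.mpr huz
      have hNpos : 0 < ballCard S u (dist u z) :=
        Finset.card_pos.mpr ⟨z, Finset.mem_filter.mpr ⟨hzS, le_refl _⟩⟩
      have hNR : (0 : ℝ) < (ballCard S u (dist u z) : ℝ) := by exact_mod_cast hNpos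
      have hNle : (ballCard S u (dist u z) : ℝ) ≤ 2 * m := by exact_mod_cast hN
      have hdp : dist u z ^ p ≤ ((j : ℝ) + 1) ^ p * ρ ^ p := by
        rw [← Real.mul_rpow hj1R.le hρpos.le]
        exact Real.rpow_le_rpow hdpos.le hd hp0.le
      have hdppos : 0 < dist u z ^ p := Real.rpow_pos_of_pos hdpos p
      have hρp : 0 < ρ ^ p := Real.rpow_pos_of_pos hρpos p
      have hA : 0 ≤ |f u - f z| ^ p := Real.rpow_nonneg (abs_nonneg _) p
      simp only [hT, hκ]
      have key : (ballCard S u (dist u z) : ℝ) * dist u z ^ p ≤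
          2 * ((j : ℝ) + 1) ^ p * (m * ρ ^ p) := by
        have hjp : 0 < ((j : ℝ) + 1) ^ p := Real.rpow_pos_of_pos hj1R p
        calc (ballCard S u (dist u z) : ℝ) * dist u z ^ p
            ≤ (2 * m) * (((j : ℝ) + 1) ^ p * ρ ^ p) := by
              apply mul_le_mul hNle hdp hdppos.le (by positivity)
          _ = 2 * ((j : ℝ) + 1) ^ p * (m * ρ ^ p) := by ring
      rw [div_le_iff₀ (by positivity)]
      have e : 2 * ((j : ℝ) + 1) ^ p * (((ballCard S u (dist u z) : ℝ))⁻¹ *
          (|f u - f z| ^ p / dist u z ^ p)) * (m * ρ ^ p)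
          = |f u - f z| ^ p * ((2 * ((j : ℝ) + 1) ^ p * (m * ρ ^ p)) /
            ((ballCard S u (dist u z) : ℝ) * dist u z ^ p)) := by
        field_simp
      rw [e]
      have h1 : 1 ≤ (2 * ((j : ℝ) + 1) ^ p * (m * ρ ^ p)) /
            ((ballCard S u (dist u z) : ℝ) * dist u z ^ p) := by
        rw [one_le_div (by positivity)]
        exact key
      nlinarith
  have hj1eq : (((j + 1 : ℕ) : ℝ)) = (j : ℝ) + 1 := by push_cast; ring
  -- distances of points of `Z j` to the endpoints
  have hdx : ∀ z ∈ Z j, dist x z ≤ ((j : ℝ) + 1) * ρ := by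
    intro z hz
    rcases (Finset.mem_filter.mp hz).2 with h | h
    · nlinarith
    · have := dist_triangle x y z
      nlinarith
  have hdy : ∀ z ∈ Z j, dist y z ≤ ((j : ℝ) + 1) * ρ := by
    intro z hz
    rcases (Finset.mem_filter.mp hz).2 with h | h
    · have := dist_triangle y x z
      rw [dist_comm y x] at this
      nlinarith
    · nlinarith
  have hNx : ∀ z ∈ Z j, ballCard S x (dist x z) ≤ 2 * m := by
    intro z hz
    refine le_trans (Finset.card_le_card ?_) hgrowth
    intro w hw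
    obtain ⟨hwS, hw2⟩ := Finset.mem_filter.mp hw
    refine Finset.mem_filter.mpr ⟨hwS, Or.inl ?_⟩
    rw [hj1eq]
    exact hw2.trans (hdx z hz)
  have hNy : ∀ z ∈ Z j, ballCard S y (dist y z) ≤ 2 * m := by
    intro z hz
    refine le_trans (Finset.card_le_card ?_) hgrowth
    intro w hw
    obtain ⟨hwS, hw2⟩ := Finset.mem_filter.mp hw
    refine Finset.mem_filter.mpr ⟨hwS, Or.inr ?_⟩
    rw [hj1eq]
    exact hw2.trans (hdy z hz)
  have hρp : 0 < ρ ^ p := Real.rpow_pos_of_pos hρpos p
  -- the averaging over `Z j`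
  have hpt : ∀ z ∈ Z j, |f x - f y| ^ p / (m * ρ ^ p) ≤
      2 ^ (p - 1) * (κ * T x z + κ * T y z) := by
    intro z hz
    have hzS := hZsub j hz
    have h1 : |f x - f y| ≤ |f x - f z| + |f y - f z| := by
      have := abs_sub_le (f x) (f z) (f y)
      rwa [abs_sub_comm (f z) (f y)] at this
    have h2 : |f x - f y| ^ p ≤ 2 ^ (p - 1) * (|f x - f z| ^ p + |f y - f z| ^ p) :=
      (Real.rpow_le_rpow (abs_nonneg _) h1 hp0.le).trans
        (add_rpow_le_real (abs_nonneg _) (abs_nonneg _) hp)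
    have h3 := hcomp x z hzS (hdx z hz) (hNx z hz)
    have h4 := hcomp y z hzS (hdy z hz) (hNy z hz)
    have hpos2 : (0 : ℝ) < 2 ^ (p - 1) := by positivity
    calc |f x - f y| ^ p / (m * ρ ^ p)
        ≤ (2 ^ (p - 1) * (|f x - f z| ^ p + |f y - f z| ^ p)) / (m * ρ ^ p) := by
          apply div_le_div_of_nonneg_right h2 (by positivity)
      _ = 2 ^ (p - 1) * (|f x - f z| ^ p / (m * ρ ^ p) + |f y - f z| ^ p / (m * ρ ^ p)) := by
          ring
      _ ≤ 2 ^ (p - 1) * (κ * T x z + κ * T y z) := by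
          apply mul_le_mul_of_nonneg_left (add_le_add h3 h4) hpos2.le
  have hsum : |f x - f y| ^ p / ρ ^ p ≤
      ∑ z ∈ Z j, 2 ^ (p - 1) * (κ * T x z + κ * T y z) := by
    have e : |f x - f y| ^ p / ρ ^ p = ∑ _z ∈ Z j, |f x - f y| ^ p / (m * ρ ^ p) := by
      rw [Finset.sum_const, nsmul_eq_mul, ← hm]
      field_simp
    rw [e]
    exact Finset.sum_le_sum hpt
  have hsum2 : ∑ z ∈ Z j, 2 ^ (p - 1) * (κ * T x z + κ * T y z) ≤
      2 ^ (p - 1) * κ * ∑ u ∈ S, ∑ z ∈ S, T u z := by
    have h1 : ∑ z ∈ Z j, 2 ^ (p - 1) * (κ * T x z + κ * T y z) =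
        2 ^ (p - 1) * κ * (∑ z ∈ Z j, T x z + ∑ z ∈ Z j, T y z) := by
      rw [← Finset.sum_add_distrib, Finset.mul_sum]
      apply Finset.sum_congr rfl
      intro z _
      ring
    rw [h1]
    apply mul_le_mul_of_nonneg_left _ (by positivity)
    have h2 : ∑ z ∈ Z j, T x z ≤ ∑ z ∈ S, T x z :=
      Finset.sum_le_sum_of_subset_of_nonneg (hZsub j) (fun z _ _ => hTnn x z)
    have h3 : ∑ z ∈ Z j, T y z ≤ ∑ z ∈ S, T y z :=
      Finset.sum_le_sum_of_subset_of_nonneg (hZsub j) (fun z _ _ => hTnn y z)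
    have h4 : ∑ z ∈ S, T x z + ∑ z ∈ S, T y z ≤ ∑ u ∈ S, ∑ z ∈ S, T u z := by
      have hsub : ({x, y} : Finset α) ⊆ S := by
        intro w hw
        simp only [Finset.mem_insert, Finset.mem_singleton] at hw
        rcases hw with rfl | rfl <;> assumption
      have := Finset.sum_le_sum_of_subset_of_nonneg (f := fun u => ∑ z ∈ S, T u z) hsub
        (fun u _ _ => Finset.sum_nonneg fun z _ => hTnn u z)
      rwa [Finset.sum_pair hxy] at this
    linarith
  have hconst : 2 ^ (p - 1) * κ ≤ (2 * ((J : ℝ) + 1)) ^ p := by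
    have h1 : (2 : ℝ) ^ (p - 1) * κ = (2 * ((j : ℝ) + 1)) ^ p := by
      rw [Real.mul_rpow (by norm_num) hj1R.le, hκ, Real.rpow_sub_one (by norm_num)]
      ring
    rw [h1]
    apply Real.rpow_le_rpow (by positivity) _ hp0.le
    have : (j : ℝ) ≤ J := by exact_mod_cast hjJ
    linarith
  have hnn : 0 ≤ ∑ u ∈ S, ∑ z ∈ S, T u z :=
    Finset.sum_nonneg fun u _ => Finset.sum_nonneg fun z _ => hTnn u z
  calc |f x - f y| ^ p / ρ ^ p ≤ 2 ^ (p - 1) * κ * ∑ u ∈ S, ∑ z ∈ S, T u z := hsum.trans hsum2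
    _ ≤ (2 * ((J : ℝ) + 1)) ^ p * ∑ u ∈ S, ∑ z ∈ S, T u z :=
        mul_le_mul_of_nonneg_right hconst hnn

end Vale.Agent.Lib.P249
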