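import Mathlib

/-!
Sparsification of a mixture (method of pessimistic estimators): if the constant vector `1` is in
the convex hull, in the dual form `hsel`, of bounded nonnegative vectors `Y · ω`, then a short
average of such vectors is uniformly close to `1`.
-/

open Finset

namespace Vale.Agent.Lib.P249

lemma exp_mul_div_le (τ : ℝ) {y R : ℝ} (hR : 0 < R) (hy0 : 0 ≤ y) (hyR : y ≤ R) :
    Real.exp (τ / R * y) ≤ 1 + y * ((Real.exp τ - 1) / R) := by
  have hl : 0 ≤ y / R := div_nonneg hy0 hR.le
  have hl' : 0 ≤ 1 - y / R := by rw [sub_nonneg, div_le_one hR]; exact hyR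
  have := convexOn_exp.2 (Set.mem_univ τ) (Set.mem_univ 0) hl hl' (by ring)
  simp only [smul_eq_mul, mul_zero, add_zero, Real.exp_zero, mul_one] at this
  have e : y / R * τ = τ / R * y := by ring
  rw [e] at this
  calc _ ≤ y / R * Real.exp τ + (1 - y / R) := this
    _ = _ := by ring

theorem sampling {Ω ι : Type*} (P : Finset ι) (Y : ι → Ω → ℝ) {R : ℝ} (hR : 1 ≤ R)
    (hY0 : ∀ π ∈ P, ∀ ω, 0 ≤ Y π ω) (hYR : ∀ π ∈ P, ∀ ω, Y π ω ≤ R)
    (hsel : ∀ γ : ι → ℝ, ∃ ω, ∑ π ∈ P, γ π * Y π ω ≤ ∑ π ∈ P, γ π)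
    (ω₀ : Ω) {ε : ℝ} (hε0 : 0 < ε) (hε1 : ε ≤ 1) (m : ℕ)
    (hm : 2 * (P.card : ℝ) * Real.exp (-(m / R * ε ^ 2 / 4)) < 1) :
    ∃ ω : ℕ → Ω, ∀ π ∈ P,
      (1 - ε) * m < ∑ i ∈ range m, Y π (ω i) ∧ ∑ i ∈ range m, Y π (ω i) < (1 + ε) * m := by
  classical
  have hRpos : 0 < R := by linarith
  set τ := ε / 2 with hτ
  have hτ0 : 0 < τ := by positivity
  have hτ1 : τ ≤ 1 := by rw [hτ]; linarith
  set θ := τ / R with hθ
  have hθ0 : 0 < θ := by positivity
  set a := (Real.exp τ - 1) / R with ha
  set b := (Real.exp (-τ) - 1) / R with hb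
  set A := 1 + a with hA
  set B := 1 + b with hB
  have hApos : 0 < A := by
    have : 0 ≤ a := by
      apply div_nonneg _ hRpos.le
      have := Real.add_one_le_exp τ
      linarith
    rw [hA]; linarith
  have hBpos : 0 < B := by
    have h1 : 0 < Real.exp (-τ) := Real.exp_pos _
    have h2 : Real.exp (-τ) - 1 ≥ -1 := by linarith
    have h3 : Real.exp (-τ) - 1 < 0 := by
      have : Real.exp (-τ) < 1 := by
        rw [Real.exp_lt_one_iff]; linarith
      linarith
    have h4 : b > -1 := by
      rw [hb, gt_iff_lt, lt_div_iff₀ hRpos]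
      nlinarith
    rw [hB]; linarith
  set U := Real.exp (-(θ * ((1 + ε) * m))) with hU
  set V := Real.exp (θ * ((1 - ε) * m)) with hV
  have hUpos : 0 < U := Real.exp_pos _
  have hVpos : 0 < V := Real.exp_pos _
  let Φ : ℕ → (ι → ℝ) → ℝ := fun t s =>
    ∑ π ∈ P, (Real.exp (θ * s π) * A ^ (m - t) * U + Real.exp (-(θ * s π)) * B ^ (m - t) * V)
  have hstep : ∀ t : ℕ, t ≤ m → ∃ ω : ℕ → Ω,
      Φ t (fun π => ∑ i ∈ range t, Y π (ω i)) ≤ Φ 0 (fun _ => 0) := by
    intro t
    induction t with
    | zero =>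
      intro _
      exact ⟨fun _ => ω₀, by simp [Φ]⟩
    | succ t ih =>
      intro ht
      obtain ⟨ω, hω⟩ := ih (by omega)
      set s : ι → ℝ := fun π => ∑ i ∈ range t, Y π (ω i) with hs
      let α : ι → ℝ := fun π => Real.exp (θ * s π) * A ^ (m - (t + 1)) * U
      let β : ι → ℝ := fun π => Real.exp (-(θ * s π)) * B ^ (m - (t + 1)) * V
      have hαnn : ∀ π, 0 ≤ α π := fun π => by positivity
      have hβnn : ∀ π, 0 ≤ β π := fun π => by positivity
      obtain ⟨ω', hω'⟩ := hsel (fun π => a * α π + b * β π)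
      refine ⟨Function.update ω t ω', le_trans ?_ hω⟩
      have hsum : ∀ π, ∑ i ∈ range (t + 1), Y π (Function.update ω t ω' i) = s π + Y π ω' := by
        intro π
        rw [Finset.sum_range_succ, Function.update_self]
        congr 1
        apply Finset.sum_congr rfl
        intro i hi
        rw [Function.update_of_ne (Finset.mem_range.mp hi).ne]
      have hterm : ∀ π ∈ P,
          Real.exp (θ * (s π + Y π ω')) * A ^ (m - (t + 1)) * U +
            Real.exp (-(θ * (s π + Y π ω'))) * B ^ (m - (t + 1)) * V ≤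
          α π + β π + (a * α π + b * β π) * Y π ω' := by
        intro π hπ
        have h1 := exp_mul_div_le τ hRpos (hY0 π hπ ω') (hYR π hπ ω')
        have h2 := exp_mul_div_le (-τ) hRpos (hY0 π hπ ω') (hYR π hπ ω')
        have e1 : Real.exp (θ * (s π + Y π ω')) * A ^ (m - (t + 1)) * U =
            α π * Real.exp (τ / R * Y π ω') := by
          simp only [α]
          rw [mul_add, Real.exp_add, hθ]
          ring
        have e2 : Real.exp (-(θ * (s π + Y π ω'))) * B ^ (m - (t + 1)) * V =
            β π * Real.exp (-τ / R * Y π ω') := by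
          simp only [β]
          have : -(θ * (s π + Y π ω')) = -(θ * s π) + (-τ / R * Y π ω') := by
            rw [hθ]; ring
          rw [this, Real.exp_add]
          ring
        rw [e1, e2]
        have h3 := mul_le_mul_of_nonneg_left h1 (hαnn π)
        have h4 := mul_le_mul_of_nonneg_left h2 (hβnn π)
        have e3 : α π * (1 + Y π ω' * ((Real.exp τ - 1) / R)) +
            β π * (1 + Y π ω' * ((Real.exp (-τ) - 1) / R)) =
            α π + β π + (a * α π + b * β π) * Y π ω' := by
          rw [ha, hb]; ring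
        linarith
      have hrec : ∀ π, Real.exp (θ * s π) * A ^ (m - t) * U + Real.exp (-(θ * s π)) * B ^ (m - t) * V
          = α π + β π + (a * α π + b * β π) := by
        intro π
        have hmt : m - t = (m - (t + 1)) + 1 := by omega
        simp only [α, β]
        rw [hmt, pow_succ, pow_succ, hA, hB]
        ring
      calc Φ (t + 1) (fun π => ∑ i ∈ range (t + 1), Y π (Function.update ω t ω' i))
          = ∑ π ∈ P, (Real.exp (θ * (s π + Y π ω')) * A ^ (m - (t + 1)) * U +
              Real.exp (-(θ * (s π + Y π ω'))) * B ^ (m - (t + 1)) * V) := by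
            simp only [Φ, hsum]
        _ ≤ ∑ π ∈ P, (α π + β π + (a * α π + b * β π) * Y π ω') := Finset.sum_le_sum hterm
        _ = ∑ π ∈ P, (α π + β π) + ∑ π ∈ P, (a * α π + b * β π) * Y π ω' :=
            Finset.sum_add_distrib
        _ ≤ ∑ π ∈ P, (α π + β π) + ∑ π ∈ P, (a * α π + b * β π) := by
            linarith
        _ = ∑ π ∈ P, (α π + β π + (a * α π + b * β π)) := Finset.sum_add_distrib.symm
        _ = Φ t s := by
            simp only [Φ]
            apply Finset.sum_congr rfl
            intro π _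
            exact (hrec π).symm
  obtain ⟨ω, hω⟩ := hstep m le_rfl
  refine ⟨ω, ?_⟩
  -- the initial value of the potential is small
  have hE : -(m / R * ε ^ 2 / 4) = (m / R) * (τ ^ 2 - τ * ε) := by
    rw [hτ]; ring
  have hmR : 0 ≤ (m : ℝ) / R := by positivity
  have hbd1 : A ^ m * U ≤ Real.exp (-(m / R * ε ^ 2 / 4)) := by
    have h1 : A ≤ Real.exp a := by
      have := Real.add_one_le_exp a
      rw [hA]; linarith
    have h2 : A ^ m ≤ Real.exp (m * a) := by
      calc A ^ m ≤ (Real.exp a) ^ m := pow_le_pow_left₀ hApos.le h1 m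
        _ = Real.exp (m * a) := (Real.exp_nat_mul a m).symm
    have h3 : Real.exp τ - 1 ≤ τ + τ ^ 2 := by
      have := Real.abs_exp_sub_one_sub_id_le (x := τ) (by rw [abs_of_pos hτ0]; exact hτ1)
      have := (abs_le.mp this).2
      linarith
    calc A ^ m * U ≤ Real.exp (m * a) * U := mul_le_mul_of_nonneg_right h2 hUpos.le
      _ = Real.exp (m * a + -(θ * ((1 + ε) * m))) := by rw [Real.exp_add]
      _ ≤ Real.exp (-(m / R * ε ^ 2 / 4)) := by
        apply Real.exp_le_exp.mpr
        rw [hE]
        have e : (m : ℝ) * a + -(θ * ((1 + ε) * m)) =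
            (m / R) * (Real.exp τ - 1 - τ * (1 + ε)) := by
          rw [ha, hθ]; ring
        rw [e]
        apply mul_le_mul_of_nonneg_left _ hmR
        nlinarith
  have hbd2 : B ^ m * V ≤ Real.exp (-(m / R * ε ^ 2 / 4)) := by
    have h1 : B ≤ Real.exp b := by
      have := Real.add_one_le_exp b
      rw [hB]; linarith
    have h2 : B ^ m ≤ Real.exp (m * b) := by
      calc B ^ m ≤ (Real.exp b) ^ m := pow_le_pow_left₀ hBpos.le h1 m
        _ = Real.exp (m * b) := (Real.exp_nat_mul b m).symm
    have h3 : Real.exp (-τ) - 1 ≤ -τ + τ ^ 2 := by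
      have := Real.abs_exp_sub_one_sub_id_le (x := -τ)
        (by rw [abs_neg, abs_of_pos hτ0]; exact hτ1)
      have := (abs_le.mp this).2
      nlinarith
    calc B ^ m * V ≤ Real.exp (m * b) * V := mul_le_mul_of_nonneg_right h2 hVpos.le
      _ = Real.exp (m * b + θ * ((1 - ε) * m)) := by rw [Real.exp_add]
      _ ≤ Real.exp (-(m / R * ε ^ 2 / 4)) := by
        apply Real.exp_le_exp.mpr
        rw [hE]
        have e : (m : ℝ) * b + θ * ((1 - ε) * m) =
            (m / R) * (Real.exp (-τ) - 1 + τ * (1 - ε)) := by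
          rw [hb, hθ]; ring
        rw [e]
        apply mul_le_mul_of_nonneg_left _ hmR
        nlinarith
  have hinit : Φ 0 (fun _ => 0) < 1 := by
    have : Φ 0 (fun _ => 0) = (P.card : ℝ) * (A ^ m * U + B ^ m * V) := by
      simp only [Φ, mul_zero, neg_zero, Real.exp_zero, one_mul, Nat.sub_zero]
      rw [Finset.sum_const, nsmul_eq_mul]
    rw [this]
    have hc : (0 : ℝ) ≤ P.card := by positivity
    calc (P.card : ℝ) * (A ^ m * U + B ^ m * V)
        ≤ (P.card : ℝ) * (Real.exp (-(m / R * ε ^ 2 / 4)) + Real.exp (-(m / R * ε ^ 2 / 4))) :=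
          mul_le_mul_of_nonneg_left (add_le_add hbd1 hbd2) hc
      _ = 2 * (P.card : ℝ) * Real.exp (-(m / R * ε ^ 2 / 4)) := by ring
      _ < 1 := hm
  intro π hπ
  set s := ∑ i ∈ range m, Y π (ω i) with hs
  have hfinal : Real.exp (θ * s) * U + Real.exp (-(θ * s)) * V < 1 := by
    have hterm : Real.exp (θ * s) * A ^ (m - m) * U + Real.exp (-(θ * s)) * B ^ (m - m) * V ≤
        Φ m (fun π => ∑ i ∈ range m, Y π (ω i)) := by
      apply Finset.single_le_sum (f := fun π' => Real.exp (θ * (∑ i ∈ range m, Y π' (ω i))) *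
          A ^ (m - m) * U + Real.exp (-(θ * (∑ i ∈ range m, Y π' (ω i)))) * B ^ (m - m) * V) _ hπ
      intro π' _
      positivity
    simp only [Nat.sub_self, pow_zero, mul_one] at hterm
    linarith
  have hp1 : 0 < Real.exp (θ * s) * U := by positivity
  have hp2 : 0 < Real.exp (-(θ * s)) * V := by positivity
  constructor
  · have h : Real.exp (-(θ * s)) * V < 1 := by linarith
    rw [hV, ← Real.exp_add, Real.exp_lt_one_iff] at h
    have h5 : θ * ((1 - ε) * m - s) < 0 := by linarith
    have h6 : (1 - ε) * m - s < 0 := by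
      by_contra hx
      exact absurd h5 (not_lt.mpr (mul_nonneg hθ0.le (not_lt.mp hx)))
    linarith
  · have h : Real.exp (θ * s) * U < 1 := by linarith
    rw [hU, ← Real.exp_add, Real.exp_lt_one_iff] at h
    have h5 : θ * (s - (1 + ε) * m) < 0 := by linarith
    have h6 : s - (1 + ε) * m < 0 := by
      by_contra hx
      exact absurd h5 (not_lt.mpr (mul_nonneg hθ0.le (not_lt.mp hx)))
    linarith

end Vale.Agent.Lib.P249
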