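import Mathlib
import Vale.Agent.Lib.P249.Metric
import Vale.Agent.Lib.P249.Sample

/-!
Embedding of a finite subset of `L_p` by weighted sampling of points of the measure space.
-/

open MeasureTheory Finset

namespace Vale.Agent.Lib.P249

variable {Ω : Type*} [MeasurableSpace Ω] {μ : Measure Ω} {p : ℝ}

lemma integrable_abs_sub_rpow (hp : 1 ≤ p) (x y : Lp ℝ (ENNReal.ofReal p) μ) :
    Integrable (fun ω => |x ω - y ω| ^ p) μ := by
  have hp0 : 0 < p := by linarith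
  have hq0 : ENNReal.ofReal p ≠ 0 := (ENNReal.ofReal_pos.mpr hp0).ne'
  have hqt : ENNReal.ofReal p ≠ ⊤ := ENNReal.ofReal_ne_top
  have h := (Lp.memLp (x - y)).integrable_norm_rpow hq0 hqt
  rw [ENNReal.toReal_ofReal hp0.le] at h
  refine h.congr ?_
  filter_upwards [Lp.coeFn_sub x y] with ω hω
  rw [hω]
  simp [Real.norm_eq_abs]

lemma integral_abs_sub_rpow (hp : 1 ≤ p) (x y : Lp ℝ (ENNReal.ofReal p) μ) :
    ∫ ω, |x ω - y ω| ^ p ∂μ = ‖x - y‖ ^ p := by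
  have hp0 : 0 < p := by linarith
  have hq0 : ENNReal.ofReal p ≠ 0 := (ENNReal.ofReal_pos.mpr hp0).ne'
  have hqt : ENNReal.ofReal p ≠ ⊤ := ENNReal.ofReal_ne_top
  have h := (Lp.memLp (x - y)).eLpNorm_eq_integral_rpow_norm hq0 hqt
  rw [ENNReal.toReal_ofReal hp0.le] at h
  have hcongr : ∫ ω, ‖(x - y : Lp ℝ (ENNReal.ofReal p) μ) ω‖ ^ p ∂μ = ∫ ω, |x ω - y ω| ^ p ∂μ := by
    apply integral_congr_ae
    filter_upwards [Lp.coeFn_sub x y] with ω hω
    rw [hω]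
    simp [Real.norm_eq_abs]
  rw [hcongr] at h
  have hnn : 0 ≤ ∫ ω, |x ω - y ω| ^ p ∂μ :=
    integral_nonneg fun ω => Real.rpow_nonneg (abs_nonneg _) p
  rw [Lp.norm_def, h, ENNReal.toReal_ofReal (Real.rpow_nonneg hnn _), ← Real.rpow_mul hnn,
    inv_mul_cancel₀ hp0.ne', Real.rpow_one]

/-- dual form of the statement that `1` is an average of the reweighted vectors -/
theorem selection_of_density {ι : Type*} (P : Finset ι) (ψ : ι → Ω → ℝ) (h : Ω → ℝ) {R : ℝ}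
    (hRpos : 0 < R) (hhnn : ∀ ω, 0 ≤ h ω) (hhint : Integrable h μ) (hhval : ∫ ω, h ω ∂μ = R)
    (hψnn : ∀ π ω, 0 ≤ ψ π ω) (hψint : ∀ π, Integrable (ψ π) μ)
    (hψval : ∀ π ∈ P, ∫ ω, ψ π ω ∂μ = 1) (hψle : ∀ π ∈ P, ∀ ω, ψ π ω ≤ h ω) (γ : ι → ℝ) :
    ∃ ω, ∑ π ∈ P, γ π * (ψ π ω * (R / h ω)) ≤ ∑ π ∈ P, γ π := by
  let Ψ : Ω → ℝ := fun ω => ∑ π ∈ P, γ π * ψ π ω
  set Γ := ∑ π ∈ P, γ π with hΓ
  let Θ : Ω → ℝ := fun ω => Ψ ω - Γ / R * h ω
  have hΨint : Integrable Ψ μ := integrable_finsetSum _ fun π _ => (hψint _).const_mul _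
  have hΨval : ∫ ω, Ψ ω ∂μ = Γ := by
    simp only [Ψ]
    rw [integral_finsetSum _ fun π _ => (hψint _).const_mul _]
    apply Finset.sum_congr rfl
    intro π hπ
    rw [integral_const_mul, hψval _ hπ, mul_one]
  have hΘint : Integrable Θ μ := hΨint.sub (hhint.const_mul _)
  have hΘ0 : ∫ ω, Θ ω ∂μ = 0 := by
    simp only [Θ]
    rw [integral_sub hΨint (hhint.const_mul _), integral_const_mul, hΨval, hhval]
    field_simp
    ring
  by_contra hcon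
  push Not at hcon
  have h1 : ∀ ω, 0 < h ω → 0 < Θ ω := by
    intro ω hω
    have hc := hcon ω
    have e : ∑ π ∈ P, γ π * (ψ π ω * (R / h ω)) = Ψ ω * (R / h ω) := by
      simp only [Ψ]
      rw [Finset.sum_mul]
      apply Finset.sum_congr rfl
      intro π _
      ring
    rw [e] at hc
    simp only [Θ]
    have h3 : Γ / R * h ω < Ψ ω := by
      have : Γ * h ω < Ψ ω * R := by
        rw [mul_div_assoc', lt_div_iff₀ hω] at hc
        linarith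
      rw [div_mul_eq_mul_div, div_lt_iff₀ hRpos]
      linarith
    linarith
  have h2 : ∀ ω, h ω = 0 → Θ ω = 0 := by
    intro ω hω
    have hz : ∀ π ∈ P, ψ π ω = 0 := by
      intro π hπ
      apply le_antisymm _ (hψnn _ _)
      have := hψle π hπ ω
      linarith
    simp only [Θ, Ψ, hω, mul_zero, sub_zero]
    apply Finset.sum_eq_zero
    intro π hπ
    rw [hz π hπ, mul_zero]
  have h3 : 0 ≤ Θ := by
    intro ω
    rcases (hhnn ω).eq_or_lt with h0 | h0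
    · rw [h2 ω h0.symm]
      simp
    · exact (h1 ω h0).le
  have h4 : Θ =ᵐ[μ] 0 := (integral_eq_zero_iff_of_nonneg h3 hΘint).mp hΘ0
  have h5 : h =ᵐ[μ] 0 := by
    filter_upwards [h4] with ω hω
    by_contra hne
    have hpos : 0 < h ω := lt_of_le_of_ne (hhnn ω) (Ne.symm hne)
    have := h1 ω hpos
    rw [hω] at this
    simp at this
  have h6 : ∫ ω, h ω ∂μ = 0 := by
    rw [integral_congr_ae h5]
    simp
  linarith

/-- the total mass of the density: the sum over pairs of the weights -/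
theorem density_mass (hp : 1 ≤ p) [Fact (1 ≤ ENNReal.ofReal p)]
    (S : Finset (Lp ℝ (ENNReal.ofReal p) μ)) [DecidableEq (Lp ℝ (ENNReal.ofReal p) μ)] :
    ∃ H : Ω → ℝ, (∀ ω, 0 ≤ H ω) ∧ Integrable H μ ∧ (∫ ω, H ω ∂μ ≤ S.card * Real.log S.card) ∧
      (∀ ω, ∀ x ∈ S, ∀ y ∈ S, x ≠ y → |x ω - y ω| ^ p / ‖x - y‖ ^ p ≤
        (2 * ((Nat.log 2 S.card : ℝ) + 1)) ^ p * H ω) := by
  have hp0 : 0 < p := by linarith
  let c : Lp ℝ (ENNReal.ofReal p) μ → Lp ℝ (ENNReal.ofReal p) μ → ℝ :=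
    fun u z => ((ballCard S u (dist u z) : ℝ))⁻¹
  have hcnn : ∀ u z, 0 ≤ c u z := fun u z => by simp only [c]; positivity
  let φ : Lp ℝ (ENNReal.ofReal p) μ → Lp ℝ (ENNReal.ofReal p) μ → Ω → ℝ :=
    fun u z ω => |u ω - z ω| ^ p / dist u z ^ p
  have hφnn : ∀ u z ω, 0 ≤ φ u z ω := fun u z ω => by simp only [φ]; positivity
  have hφint : ∀ u z, Integrable (φ u z) μ := fun u z =>
    (integrable_abs_sub_rpow hp u z).div_const _
  have hφval : ∀ u z, u ≠ z → ∫ ω, φ u z ω ∂μ = 1 := by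
    intro u z huz
    simp only [φ]
    rw [integral_div, integral_abs_sub_rpow hp, dist_eq_norm]
    apply div_self
    have : 0 < ‖u - z‖ := norm_pos_iff.mpr (sub_ne_zero.mpr huz)
    positivity
  have hφself : ∀ u ω, φ u u ω = 0 := by
    intro u ω
    simp only [φ, dist_self, Real.zero_rpow hp0.ne', div_zero]
  let H : Ω → ℝ := fun ω => ∑ u ∈ S, ∑ z ∈ S, c u z * φ u z ω
  have hHint : Integrable H μ :=
    integrable_finsetSum _ fun u _ => integrable_finsetSum _ fun z _ => (hφint u z).const_mul _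
  refine ⟨H, fun ω => Finset.sum_nonneg fun u _ => Finset.sum_nonneg fun z _ =>
    mul_nonneg (hcnn u z) (hφnn u z ω), hHint, ?_, ?_⟩
  · have hHval : ∫ ω, H ω ∂μ = ∑ u ∈ S, ∑ z ∈ S.erase u, c u z := by
      simp only [H]
      rw [integral_finsetSum _ fun u _ => integrable_finsetSum _ fun z _ =>
        (hφint u z).const_mul _]
      apply Finset.sum_congr rfl
      intro u hu
      rw [integral_finsetSum _ fun z _ => (hφint u z).const_mul _]
      have hself : ∫ ω, c u u * φ u u ω ∂μ = 0 := by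
        simp only [hφself, mul_zero, integral_zero]
      rw [← Finset.sum_erase S hself]
      apply Finset.sum_congr rfl
      intro z hz
      rw [integral_const_mul, hφval u z (Finset.ne_of_mem_erase hz).symm, mul_one]
    rw [hHval]
    calc ∑ u ∈ S, ∑ z ∈ S.erase u, c u z ≤ ∑ _u ∈ S, Real.log S.card :=
          Finset.sum_le_sum fun u hu => sum_erase_inv_ballCard_le S hu
      _ = S.card * Real.log S.card := by rw [Finset.sum_const, nsmul_eq_mul]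
  · intro ω x hx y hy hxy
    have := slope_bound S hp (fun v : Lp ℝ (ENNReal.ofReal p) μ => v ω) hx hy hxy
    rw [dist_eq_norm] at this
    exact this

/-- the numerology of the number of samples -/
theorem count_bound {n J : ℕ} (hn : 2 ≤ n) (hJ : J = Nat.log 2 n) (hp : 1 ≤ p) {ε : ℝ}
    (hε0 : 0 < ε) (hε1 : ε < 1) {R : ℝ} (hR0 : 0 ≤ R)
    (hRQ : R ≤ (2 * ((J : ℝ) + 1)) ^ p * (n * Real.log n)) :
    ((⌊4 * R * Real.log (2 * (n : ℝ) ^ 2) / ε ^ 2⌋₊ + 1 : ℕ) : ℝ) ≤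
      13 * 6 ^ p * (1 / ε) ^ 2 * n * Real.log n ^ (p + 2) := by
  have hp0 : 0 < p := by linarith
  have hnR : (2 : ℝ) ≤ n := by exact_mod_cast hn
  have hJ0 : (0 : ℝ) ≤ J := by positivity
  set L := Real.log n with hL
  have hl2 : (2 : ℝ) / 3 ≤ Real.log 2 := by
    have := Real.log_two_gt_d9
    norm_num at this ⊢
    linarith
  have hLge : Real.log 2 ≤ L := Real.log_le_log (by norm_num) hnR
  have hL23 : (2 : ℝ) / 3 ≤ L := hl2.trans hLge
  have hJle : (J : ℝ) + 1 ≤ 3 * L := by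
    have h2J : 2 ^ J ≤ n := by
      rw [hJ]; exact Nat.pow_log_le_self 2 (by omega)
    have h1 : (J : ℝ) * Real.log 2 ≤ L := by
      rw [hL, ← Real.log_pow]
      apply Real.log_le_log (by positivity)
      exact_mod_cast h2J
    have h3 : (J : ℝ) * (2 / 3) ≤ (J : ℝ) * Real.log 2 :=
      mul_le_mul_of_nonneg_left hl2 hJ0
    linarith
  have hKle : (2 * ((J : ℝ) + 1)) ^ p ≤ 6 ^ p * L ^ p := by
    rw [← Real.mul_rpow (by norm_num) (by linarith)]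
    apply Real.rpow_le_rpow (by positivity) _ hp0.le
    linarith
  have hLp : 0 < L ^ p := Real.rpow_pos_of_pos (by linarith) p
  have h6p : (0 : ℝ) < 6 ^ p := by positivity
  have hLpos : 0 < L := by linarith
  have hRle : R ≤ 6 ^ p * L ^ p * (n * L) :=
    hRQ.trans (mul_le_mul_of_nonneg_right hKle (by positivity))
  have hlog2n : Real.log (2 * (n : ℝ) ^ 2) ≤ 3 * L := by
    rw [Real.log_mul (by norm_num) (by positivity), Real.log_pow]
    push_cast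
    linarith
  have hrpow : L ^ (p + 2) = L ^ p * L ^ 2 := by
    rw [Real.rpow_add (by linarith)]
    norm_cast
  have hε2 : 0 < ε ^ 2 := by positivity
  have hinv : (1 / ε) ^ 2 = 1 / ε ^ 2 := by
    rw [div_pow, one_pow]
  have hlognn : 0 ≤ Real.log (2 * (n : ℝ) ^ 2) := Real.log_nonneg (by nlinarith)
  have hA : 4 * R * Real.log (2 * (n : ℝ) ^ 2) / ε ^ 2 ≤
      12 * 6 ^ p * (1 / ε) ^ 2 * n * L ^ (p + 2) := by
    rw [hinv, hrpow, div_le_iff₀ hε2]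
    have h1 : R * Real.log (2 * (n : ℝ) ^ 2) ≤ (6 ^ p * L ^ p * (n * L)) * (3 * L) :=
      mul_le_mul hRle hlog2n hlognn (by positivity)
    have e : 12 * 6 ^ p * (1 / ε ^ 2) * n * (L ^ p * L ^ 2) * ε ^ 2 =
        4 * ((6 ^ p * L ^ p * (n * L)) * (3 * L)) := by
      field_simp
      ring
    rw [e]
    linarith
  have hone' : 1 ≤ 6 ^ p * (1 / ε) ^ 2 * n * L ^ (p + 2) := by
    rw [hrpow]
    have h1 : (1 : ℝ) ≤ (1 / ε) ^ 2 := by
      apply one_le_pow₀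
      rw [le_div_iff₀ hε0]
      linarith
    have h2 : (4 : ℝ) ≤ 6 ^ p * L ^ p := by
      rw [← Real.mul_rpow (by norm_num) (by linarith)]
      calc (4 : ℝ) = 4 ^ (1 : ℝ) := by norm_num
        _ ≤ 4 ^ p := Real.rpow_le_rpow_of_exponent_le (by norm_num) hp
        _ ≤ (6 * L) ^ p := Real.rpow_le_rpow (by norm_num) (by linarith) hp0.le
    have h3 : (4 : ℝ) / 9 ≤ L ^ 2 := by nlinarith
    have h4 : (1 : ℝ) ≤ (6 ^ p * L ^ p) * (n * L ^ 2) := by
      have : (8 : ℝ) / 9 ≤ n * L ^ 2 := by nlinarith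
      nlinarith
    have e : 6 ^ p * (1 / ε) ^ 2 * n * (L ^ p * L ^ 2) =
        (1 / ε) ^ 2 * ((6 ^ p * L ^ p) * (n * L ^ 2)) := by ring
    rw [e]
    nlinarith
  have hfl : ((⌊4 * R * Real.log (2 * (n : ℝ) ^ 2) / ε ^ 2⌋₊ + 1 : ℕ) : ℝ) ≤
      4 * R * Real.log (2 * (n : ℝ) ^ 2) / ε ^ 2 + 1 := by
    push_cast
    have hnn : 0 ≤ 4 * R * Real.log (2 * (n : ℝ) ^ 2) / ε ^ 2 := by
      positivity
    linarith [Nat.floor_le hnn]
  have e13 : 13 * 6 ^ p * (1 / ε) ^ 2 * (n : ℝ) * L ^ (p + 2) =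
      12 * 6 ^ p * (1 / ε) ^ 2 * n * L ^ (p + 2) + 6 ^ p * (1 / ε) ^ 2 * n * L ^ (p + 2) := by
    ring
  rw [e13]
  linarith

/-- the number of samples makes the failure probability bound small -/
theorem count_enough {n : ℕ} (hn : 2 ≤ n) {c : ℕ} (hc : c ≤ n ^ 2) {ε R : ℝ} (hε0 : 0 < ε)
    (hRpos : 0 < R) :
    2 * (c : ℝ) * Real.exp (-(((⌊4 * R * Real.log (2 * (n : ℝ) ^ 2) / ε ^ 2⌋₊ + 1 : ℕ) : ℝ)
      / R * ε ^ 2 / 4)) < 1 := by
  have hnR : (2 : ℝ) ≤ n := by exact_mod_cast hn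
  have hnpos : (0 : ℝ) < n := by linarith
  set m : ℕ := ⌊4 * R * Real.log (2 * (n : ℝ) ^ 2) / ε ^ 2⌋₊ + 1 with hm
  have hmgt : 4 * R * Real.log (2 * (n : ℝ) ^ 2) / ε ^ 2 < m := by
    rw [hm]
    push_cast
    exact Nat.lt_floor_add_one _
  have hcard : (c : ℝ) ≤ (n : ℝ) ^ 2 := by exact_mod_cast hc
  have hε2 : 0 < ε ^ 2 := by positivity
  have h1 : Real.log (2 * (n : ℝ) ^ 2) < m / R * ε ^ 2 / 4 := by
    rw [div_lt_iff₀ hε2] at hmgt
    have : 4 * R * Real.log (2 * (n : ℝ) ^ 2) < m * ε ^ 2 := hmgt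
    rw [lt_div_iff₀ (by norm_num : (0 : ℝ) < 4), div_mul_eq_mul_div, lt_div_iff₀ hRpos]
    linarith
  have h2 : Real.exp (-(m / R * ε ^ 2 / 4)) < (2 * (n : ℝ) ^ 2)⁻¹ := by
    rw [← Real.exp_log (show 0 < (2 * (n : ℝ) ^ 2)⁻¹ by positivity), Real.log_inv]
    exact Real.exp_lt_exp.mpr (by linarith)
  have h3 : 0 < Real.exp (-(m / R * ε ^ 2 / 4)) := Real.exp_pos _
  calc 2 * (c : ℝ) * Real.exp (-(m / R * ε ^ 2 / 4))
      ≤ 2 * (n : ℝ) ^ 2 * Real.exp (-(m / R * ε ^ 2 / 4)) := by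
        apply mul_le_mul_of_nonneg_right _ h3.le
        linarith
    _ < 2 * (n : ℝ) ^ 2 * (2 * (n : ℝ) ^ 2)⁻¹ :=
        mul_lt_mul_of_pos_left h2 (by positivity)
    _ = 1 := mul_inv_cancel₀ (by positivity)

/-- the sampling step: an explicit embedding with `m` coordinates -/
theorem embed_core (hp : 1 ≤ p) {ε : ℝ} (hε0 : 0 < ε) (hε1 : ε < 1)
    (S : Finset (Lp ℝ (ENNReal.ofReal p) μ)) (hS : 2 ≤ S.card) :
    ∃ (m : ℕ) (F : Lp ℝ (ENNReal.ofReal p) μ → Fin m → ℝ),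
      (m : ℝ) ≤ 13 * 6 ^ p * (1 / ε) ^ 2 * S.card * Real.log S.card ^ (p + 2) ∧
      ∀ x ∈ S, ∀ y ∈ S, ‖x - y‖ ^ p ≤ ∑ k, |F x k - F y k| ^ p ∧
        ∑ k, |F x k - F y k| ^ p ≤ (1 + ε) / (1 - ε) * ‖x - y‖ ^ p := by
  classical
  have : Fact (1 ≤ ENNReal.ofReal p) := ⟨ENNReal.one_le_ofReal.mpr hp⟩
  have hp0 : 0 < p := by linarith
  set n := S.card with hn
  have hnR : (2 : ℝ) ≤ n := by exact_mod_cast hS
  set J := Nat.log 2 n with hJ
  set K : ℝ := (2 * ((J : ℝ) + 1)) ^ p with hK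
  have hJ0 : (0 : ℝ) ≤ J := by positivity
  have hKpos : 0 < K := by positivity
  obtain ⟨H, hHnn, hHint, hHmass, hslope⟩ := density_mass hp S
  let h : Ω → ℝ := fun ω => K * H ω
  have hhnn : ∀ ω, 0 ≤ h ω := fun ω => mul_nonneg hKpos.le (hHnn ω)
  have hhint : Integrable h μ := hHint.const_mul K
  set R : ℝ := ∫ ω, h ω ∂μ with hRdef
  let ψ : Lp ℝ (ENNReal.ofReal p) μ × Lp ℝ (ENNReal.ofReal p) μ → Ω → ℝ :=
    fun π ω => |π.1 ω - π.2 ω| ^ p / ‖π.1 - π.2‖ ^ p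
  have hψnn : ∀ π ω, 0 ≤ ψ π ω := fun π ω => by simp only [ψ]; positivity
  have hψint : ∀ π, Integrable (ψ π) μ := fun π =>
    (integrable_abs_sub_rpow hp π.1 π.2).div_const _
  let P : Finset (Lp ℝ (ENNReal.ofReal p) μ × Lp ℝ (ENNReal.ofReal p) μ) := S.offDiag
  have hPmem : ∀ π ∈ P, π.1 ∈ S ∧ π.2 ∈ S ∧ π.1 ≠ π.2 := fun π hπ => Finset.mem_offDiag.mp hπ
  have hψval : ∀ π ∈ P, ∫ ω, ψ π ω ∂μ = 1 := by
    intro π hπ
    simp only [ψ]
    rw [integral_div, integral_abs_sub_rpow hp]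
    apply div_self
    have : 0 < ‖π.1 - π.2‖ := norm_pos_iff.mpr (sub_ne_zero.mpr (hPmem π hπ).2.2)
    positivity
  have hψle : ∀ π ∈ P, ∀ ω, ψ π ω ≤ h ω := fun π hπ ω =>
    hslope ω π.1 (hPmem π hπ).1 π.2 (hPmem π hπ).2.1 (hPmem π hπ).2.2
  obtain ⟨x₀, hx₀, y₀, hy₀, hxy₀⟩ := Finset.one_lt_card.mp (show 1 < S.card by omega)
  have hx₀y₀ : (x₀, y₀) ∈ P := Finset.mem_offDiag.mpr ⟨hx₀, hy₀, hxy₀⟩
  have hR1 : 1 ≤ R := by
    rw [← hψval _ hx₀y₀, hRdef]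
    exact integral_mono (hψint _) hhint (hψle _ hx₀y₀)
  have hRpos : 0 < R := by linarith
  let Y : Lp ℝ (ENNReal.ofReal p) μ × Lp ℝ (ENNReal.ofReal p) μ → Ω → ℝ :=
    fun π ω => ψ π ω * (R / h ω)
  have hY0 : ∀ π ∈ P, ∀ ω, 0 ≤ Y π ω := fun π _ ω =>
    mul_nonneg (hψnn _ _) (div_nonneg hRpos.le (hhnn ω))
  have hYR : ∀ π ∈ P, ∀ ω, Y π ω ≤ R := by
    intro π hπ ω
    simp only [Y]
    rcases (hhnn ω).eq_or_lt with h0 | h0
    · rw [← h0, div_zero, mul_zero]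
      exact hRpos.le
    · have := hψle π hπ ω
      rw [mul_div_assoc', div_le_iff₀ h0]
      nlinarith
  have hsel : ∀ γ : Lp ℝ (ENNReal.ofReal p) μ × Lp ℝ (ENNReal.ofReal p) μ → ℝ,
      ∃ ω, ∑ π ∈ P, γ π * Y π ω ≤ ∑ π ∈ P, γ π := fun γ =>
    selection_of_density P ψ h hRpos hhnn hhint rfl hψnn hψint hψval hψle γ
  obtain ⟨ω₀, _⟩ := hsel (fun _ => 0)
  have hPcard : P.card ≤ n ^ 2 := by
    simp only [P]
    rw [Finset.offDiag_card]
    have : S.card * S.card = n ^ 2 := by rw [← hn]; ring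
    omega
  set m : ℕ := ⌊4 * R * Real.log (2 * (n : ℝ) ^ 2) / ε ^ 2⌋₊ + 1 with hm
  have hmR := count_enough hS hPcard hε0 hRpos
  rw [← hm] at hmR
  obtain ⟨ω, hω⟩ := sampling P Y hR1 hY0 hYR hsel ω₀ hε0 hε1.le m hmR
  have hmpos : (0 : ℝ) < m := by
    rw [hm]; positivity
  have hone : 0 < 1 - ε := by linarith
  -- the embedding
  let w : ℕ → ℝ := fun i => (1 - ε)⁻¹ * R / (m * h (ω i))
  have hwnn : ∀ i, 0 ≤ w i := fun i => by
    have := hhnn (ω i)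
    simp only [w]
    positivity
  let F : Lp ℝ (ENNReal.ofReal p) μ → Fin m → ℝ :=
    fun x k => w k ^ (1 / p) * x (ω k)
  have hFk : ∀ x y (k : Fin m), |F x k - F y k| ^ p = w k * |x (ω k) - y (ω k)| ^ p := by
    intro x y k
    simp only [F]
    rw [← mul_sub, abs_mul, Real.mul_rpow (abs_nonneg _) (abs_nonneg _),
      abs_of_nonneg (Real.rpow_nonneg (hwnn k) _), ← Real.rpow_mul (hwnn k),
      one_div, inv_mul_cancel₀ hp0.ne', Real.rpow_one]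
  have hsum : ∀ x y : Lp ℝ (ENNReal.ofReal p) μ, x ≠ y → ∑ k, |F x k - F y k| ^ p =
      (1 - ε)⁻¹ * ‖x - y‖ ^ p / m * ∑ i ∈ Finset.range m, Y (x, y) (ω i) := by
    intro x y hxy
    have hd : 0 < ‖x - y‖ ^ p := by
      have : 0 < ‖x - y‖ := norm_pos_iff.mpr (sub_ne_zero.mpr hxy)
      positivity
    rw [← Fin.sum_univ_eq_sum_range (fun i => Y (x, y) (ω i)) m, Finset.mul_sum]
    apply Finset.sum_congr rfl
    intro k _
    rw [hFk]
    simp only [w, Y, ψ]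
    rw [show (1 - ε)⁻¹ * R / (m * h (ω k)) = (1 - ε)⁻¹ / m * (R / h (ω k)) by
      rw [div_mul_div_comm]]
    field_simp
  have hmain : ∀ x ∈ S, ∀ y ∈ S, ‖x - y‖ ^ p ≤ ∑ k, |F x k - F y k| ^ p ∧
      ∑ k, |F x k - F y k| ^ p ≤ (1 + ε) / (1 - ε) * ‖x - y‖ ^ p := by
    intro x hx y hy
    by_cases hxy : x = y
    · subst hxy
      simp [Real.zero_rpow hp0.ne']
    · have hd : 0 < ‖x - y‖ ^ p := by
        have : 0 < ‖x - y‖ := norm_pos_iff.mpr (sub_ne_zero.mpr hxy)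
        positivity
      obtain ⟨h1, h2⟩ := hω (x, y) (Finset.mem_offDiag.mpr ⟨hx, hy, hxy⟩)
      rw [hsum x y hxy]
      set s := ∑ i ∈ Finset.range m, Y (x, y) (ω i) with hs
      have hcoef : 0 < (1 - ε)⁻¹ * ‖x - y‖ ^ p / m := by positivity
      constructor
      · calc ‖x - y‖ ^ p = (1 - ε)⁻¹ * ‖x - y‖ ^ p / m * ((1 - ε) * m) := by
              field_simp
          _ ≤ (1 - ε)⁻¹ * ‖x - y‖ ^ p / m * s :=
              mul_le_mul_of_nonneg_left h1.le hcoef.le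
      · calc (1 - ε)⁻¹ * ‖x - y‖ ^ p / m * s
            ≤ (1 - ε)⁻¹ * ‖x - y‖ ^ p / m * ((1 + ε) * m) :=
              mul_le_mul_of_nonneg_left h2.le hcoef.le
          _ = (1 + ε) / (1 - ε) * ‖x - y‖ ^ p := by
              field_simp
  refine ⟨m, F, ?_, hmain⟩
  have hRQ : R ≤ K * (n * Real.log n) := by
    rw [hRdef]
    simp only [h]
    rw [integral_const_mul]
    exact mul_le_mul_of_nonneg_left hHmass hKpos.le
  exact count_bound hS hJ hp hε0 hε1 hRpos.le hRQ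

end Vale.Agent.Lib.P249
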